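import Mathlib

/-!
P130: Laurent polynomials acting by powers of a unitary, and their evaluation on the circle.
-/

noncomputable section

namespace Vale.Agent.P130.Morse

open MeasureTheory Filter
open scoped ComplexConjugate InnerProductSpace Topology

/-- The circle of length one. -/
abbrev Circ := AddCircle (1 : ℝ)

/-- Laurent polynomials. -/
abbrev Poly := AddMonoidAlgebra ℂ ℤ

/-- Evaluation of a Laurent polynomial on the circle. -/
def ev : Poly →ₐ[ℂ] C(Circ, ℂ) :=
  AddMonoidAlgebra.lift ℂ C(Circ, ℂ) ℤ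
    { toFun := fun k => fourier k.toAdd
      map_one' := ContinuousMap.ext fun _ => fourier_zero
      map_mul' := fun _ _ => ContinuousMap.ext fun _ => fourier_add }

theorem ev_single (k : ℤ) (c : ℂ) : ev (AddMonoidAlgebra.single k c) = c • fourier k :=
  AddMonoidAlgebra.lift_single _ k c

variable {H : Type*} [NormedAddCommGroup H] [InnerProductSpace ℂ H]
variable (U : H ≃ₗᵢ[ℂ] H)

/-- The operator given by a Laurent polynomial in a unitary. -/
def act : Poly →ₐ[ℂ] (H →L[ℂ] H) :=
  AddMonoidAlgebra.lift ℂ (H →L[ℂ] H) ℤ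
    { toFun := fun k => ((U ^ k.toAdd).toContinuousLinearEquiv : H →L[ℂ] H)
      map_one' := by ext; simp
      map_mul' := fun a b => by ext; simp [zpow_add] }

theorem act_single (k : ℤ) (c : ℂ) (x : H) :
    act U (AddMonoidAlgebra.single k c) x = c • (U ^ k) x := by
  rw [act, AddMonoidAlgebra.lift_single]
  rfl

theorem zpow_zpow_apply (a b : ℤ) (x : H) : (U ^ a) ((U ^ b) x) = (U ^ (a + b)) x := by
  rw [zpow_add]; rfl

theorem inner_zpow_zpow (a b : ℤ) (x y : H) :
    ⟪(U ^ a) x, (U ^ b) y⟫_ℂ = ⟪x, (U ^ (b - a)) y⟫_ℂ := by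
  conv_lhs => rw [show b = a + (b - a) by ring, ← zpow_zpow_apply]
  exact LinearIsometryEquiv.inner_map_map _ _ _

theorem zpow_act_apply (k : ℤ) (p : Poly) (x : H) :
    (U ^ k) (act U p x) = act U (AddMonoidAlgebra.single k 1 * p) x := by
  rw [map_mul, mul_apply_eq_comp, act_single, one_smul]

theorem integrable_circ {E : Type*} [NormedAddCommGroup E] {f : Circ → E} (hf : Continuous f) :
    Integrable f AddCircle.haarAddCircle := by
  rw [← integrableOn_univ]
  exact hf.continuousOn.integrableOn_compact isCompact_univ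

theorem integral_fourier (k : ℤ) :
    ∫ x, fourier k x ∂(AddCircle.haarAddCircle : Measure Circ) = if k = 0 then 1 else 0 := by
  split_ifs with h
  · subst h; simp
  · exact integral_eq_zero_of_add_right_eq_neg (μ := AddCircle.haarAddCircle)
      (fourier_add_half_inv_index h one_pos)

/-- If the correlations of `g` are the Fourier coefficients of `d`, inner products of
polynomial images of `g` are integrals against `d`. -/
theorem inner_act {g : H} {d : Circ → ℝ} (hd : Continuous d)
    (hc : ∀ k : ℤ, ⟪g, (U ^ k) g⟫_ℂ = ∫ x, fourier k x * (d x : ℂ) ∂AddCircle.haarAddCircle)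
    (p q : Poly) :
    ⟪act U p g, act U q g⟫_ℂ =
      ∫ x, conj (ev p x) * ev q x * (d x : ℂ) ∂AddCircle.haarAddCircle := by
  have hint : ∀ a b : Poly, Integrable (fun x => conj (ev a x) * ev b x * (d x : ℂ))
      (AddCircle.haarAddCircle : Measure Circ) := fun a b => integrable_circ (by fun_prop)
  induction p using AddMonoidAlgebra.induction_linear with
  | zero => simp
  | add a b ha hb =>
    rw [map_add, add_apply, inner_add_left, ha, hb, ← integral_add (hint _ _) (hint _ _)]
    exact integral_congr_ae (.of_forall fun x => by simp [map_add]; ring)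
  | single m r =>
    induction q using AddMonoidAlgebra.induction_linear with
    | zero => simp
    | add a b ha hb =>
      rw [map_add, add_apply, inner_add_right, ha, hb, ← integral_add (hint _ _) (hint _ _)]
      exact integral_congr_ae (.of_forall fun x => by simp [map_add]; ring)
    | single l s =>
      rw [act_single, act_single, inner_smul_left, inner_smul_right, inner_zpow_zpow, hc,
        ← integral_const_mul, ← integral_const_mul]
      refine integral_congr_ae (.of_forall fun x => ?_)
      simp only [ev_single, ContinuousMap.smul_apply, smul_eq_mul, map_mul, ← fourier_neg,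
        sub_eq_neg_add, fourier_add]
      ring

/-- The norm of a polynomial image of `g`. -/
theorem norm_act_le {g : H} {d : Circ → ℝ} (hd : Continuous d)
    (hc : ∀ k : ℤ, ⟪g, (U ^ k) g⟫_ℂ = ∫ x, fourier k x * (d x : ℂ) ∂AddCircle.haarAddCircle)
    {C : ℝ} (hC : ∀ x, |d x| ≤ C) (p : Poly) : ‖act U p g‖ ≤ Real.sqrt C * ‖ev p‖ := by
  have hC0 : 0 ≤ C := (abs_nonneg _).trans (hC 0)
  refine le_of_pow_le_pow_left₀ two_ne_zero (by positivity) ?_
  rw [mul_pow, Real.sq_sqrt hC0, ← inner_self_eq_norm_sq (𝕜 := ℂ), inner_act U hd hc]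
  refine le_trans (RCLike.re_le_norm _) (le_trans
    (norm_integral_le_of_norm_le_const (C := C * ‖ev p‖ ^ 2) (.of_forall fun x => ?_)) ?_)
  · rw [norm_mul, norm_mul, RCLike.norm_conj, Complex.norm_real, Real.norm_eq_abs, ← sq,
      mul_comm C]
    exact mul_le_mul (pow_le_pow_left₀ (norm_nonneg _) ((ev p).norm_coe_le_norm x) 2) (hC x)
      (abs_nonneg _) (sq_nonneg _)
  · simp

theorem exists_ev_close (G : C(Circ, ℂ)) {ε : ℝ} (hε : 0 < ε) : ∃ p : Poly, ‖ev p - G‖ < ε := by
  have hG : G ∈ (Submodule.span ℂ (Set.range (@fourier 1))).topologicalClosure := by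
    rw [span_fourier_closure_eq_top]; trivial
  have hle : Submodule.span ℂ (Set.range (@fourier 1)) ≤ LinearMap.range ev.toLinearMap := by
    rw [Submodule.span_le]
    rintro _ ⟨k, rfl⟩
    exact ⟨AddMonoidAlgebra.single k 1, (ev_single k 1).trans (one_smul _ _)⟩
  obtain ⟨F, hF, hd⟩ := Metric.mem_closure_iff.1 hG ε hε
  obtain ⟨p, rfl⟩ := hle hF
  refine ⟨p, ?_⟩
  rw [dist_comm, dist_eq_norm] at hd
  exact hd

theorem tendsto_integral_circ {α : Type*} {l : Filter α} {F : α → C(Circ, ℂ)} {G : C(Circ, ℂ)}
    (h : Tendsto F l (𝓝 G)) :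
    Tendsto (fun j => ∫ x, F j x ∂AddCircle.haarAddCircle) l
      (𝓝 (∫ x, G x ∂AddCircle.haarAddCircle)) := by
  refine tendsto_iff_norm_sub_tendsto_zero.2 (squeeze_zero (fun _ => norm_nonneg _) (fun j => ?_)
    (tendsto_iff_norm_sub_tendsto_zero.1 h))
  rw [← integral_sub (integrable_circ (F j).continuous) (integrable_circ G.continuous)]
  refine le_trans (norm_integral_le_of_norm_le_const (C := ‖F j - G‖)
    (.of_forall fun x => ?_)) (by simp)
  rw [← ContinuousMap.sub_apply]
  exact (F j - G).norm_coe_le_norm x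

end Vale.Agent.P130.Morse
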