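import Vale.Agent.P130.Morse.Spectral
import Vale.Agent.P110.Full.Statements

/-!
P130: choice of the blocks from uniformly flat Littlewood polynomials.
-/

noncomputable section

namespace Vale.Agent.P130.Morse

open MeasureTheory Filter

/-- Uniformly flat Littlewood polynomials give sign blocks forming a tower. -/
theorem exists_tower (h : Vale.Agent.P110.Full.UltraflatStatement) :
    ∃ (B : Blocks) (W : Tower B.U), ∀ n, W.g n = B.blk n 0 := by
  classical
  set η : ℕ → ℝ := fun n => 1 / 4 * (1 / 2) ^ n with hη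
  have hpos : ∀ n, 0 < η n := fun n => by positivity
  choose N₀ hN₀ using fun n => h (η n) (hpos n)
  have hle : ∀ n, N₀ n ≤ 2 ^ (N₀ n + 1) := fun n =>
    (Nat.lt_two_pow_self.le).trans (Nat.pow_le_pow_right (by norm_num) (Nat.le_succ _))
  choose y hy hflat using fun n => hN₀ n (2 ^ (N₀ n + 1)) (hle n)
  set bit : ℕ → ℕ → Bool := fun n b =>
    if hb : b < 2 ^ (N₀ n + 1) then decide (y n ⟨b, hb⟩ = -1) else false with hbit
  let B : Blocks := ⟨fun n => N₀ n + 1, fun n => Nat.le_add_left 1 _, bit⟩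
  have hsgn : ∀ n (b : Fin (2 ^ (N₀ n + 1))), Blocks.sgn (bit n b) = (y n b : ℂ) := by
    intro n b
    simp only [hbit, dif_pos b.2, Fin.eta]
    rcases hy n b with h1 | h1 <;> norm_num [h1, Blocks.sgn]
  refine ⟨B, B.tower η (fun n => (hpos n).le) (fun n => ?_) ?_ (fun n x => ?_), fun n => rfl⟩
  · have h1 : ((1 : ℝ) / 2) ^ n ≤ 1 := pow_le_one₀ (by norm_num) (by norm_num)
    simp only [hη]; linarith
  · exact (summable_geometric_of_lt_one (by norm_num) (by norm_num)).mul_left _
  · set N := 2 ^ (N₀ n + 1) with hN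
    set z : ℂ := fourier (-(B.ht n : ℤ)) x with hz
    have hz1 : ‖z‖ = 1 := Circle.norm_coe _
    have hev : ev (factor (B.ht n) (2 ^ B.k n) (B.coeff n)) x =
        (Blocks.sgn (bit n 0) / (Real.sqrt N : ℂ)) * ∑ b : Fin N, (y n b : ℂ) * z ^ (b : ℕ) := by
      simp only [factor, map_sum, ContinuousMap.sum_apply, ev_single, ContinuousMap.smul_apply,
        smul_eq_mul]
      rw [show B.k n = N₀ n + 1 from rfl, ← hN, Finset.sum_range, Finset.mul_sum]
      refine Finset.sum_congr rfl fun b _ => ?_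
      rw [Blocks.fourier_mul, ← hz, ← hsgn, Blocks.coeff]
      ring
    have hNpos : (0 : ℝ) < Real.sqrt N := Real.sqrt_pos.2 (by positivity)
    rw [hev, norm_mul, norm_div, Blocks.norm_sgn, Complex.norm_real, Real.norm_eq_abs,
      abs_of_pos hNpos, div_mul_eq_mul_div, one_mul, le_div_iff₀ hNpos, div_le_iff₀ hNpos]
    exact hflat n z hz1

end Vale.Agent.P130.Morse
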