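import Vale.Agent.P130.Morse.Odometer

/-!
P130: the two-point Morse extension of the dyadic odometer given by a sequence of sign blocks,
and the block vectors of the extension.
-/

noncomputable section

namespace Vale.Agent.P130.Morse

open MeasureTheory Filter
open scoped ComplexConjugate InnerProductSpace Topology ENNReal

/-- Sign blocks: at step `n` there are `2 ^ k n` signs. -/
structure Blocks where
  k : ℕ → ℕ
  k_pos : ∀ n, 1 ≤ k n
  bit : ℕ → ℕ → Bool

namespace Blocks

variable (B : Blocks)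

/-- The exponent of the tower height. -/
def lev : ℕ → ℕ
  | 0 => 0
  | n + 1 => lev n + B.k n

/-- The tower height. -/
def ht (n : ℕ) : ℕ := 2 ^ B.lev n

theorem lev_succ (n : ℕ) : B.lev (n + 1) = B.lev n + B.k n := rfl

theorem lev_mono : Monotone B.lev := monotone_nat_of_le_succ fun n => by rw [lev_succ]; omega

theorem le_lev (n : ℕ) : n ≤ B.lev n := by
  induction n with
  | zero => simp
  | succ n ih =>
    have := B.k_pos n
    rw [lev_succ]; omega

theorem ht_pos (n : ℕ) : 0 < B.ht n := Nat.two_pow_pos _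

theorem ht_succ (n : ℕ) : B.ht (n + 1) = B.ht n * 2 ^ B.k n := pow_add 2 _ _

theorem ht_dvd {n m : ℕ} (h : n ≤ m) : B.ht n ∣ B.ht m := pow_dvd_pow 2 (B.lev_mono h)

/-- The word of level `n`. -/
def word : ℕ → ℕ → Bool
  | 0, _ => false
  | n + 1, i => xor (B.bit n (i / B.ht n)) (word n (i % B.ht n))

theorem word_block {n b : ℕ} : B.word (n + 1) (b * B.ht n) = xor (B.bit n b) (B.word n 0) := by
  rw [word, Nat.mul_div_cancel _ (B.ht_pos n), Nat.mul_mod_left]

/-- The jump of the word of level `n` after position `i`. -/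
def jump (n i : ℕ) : Bool := xor (B.word n (i + 1)) (B.word n i)

theorem jump_succ {n i : ℕ} (hi : i % B.ht n + 1 < B.ht n) :
    B.jump (n + 1) i = B.jump n (i % B.ht n) := by
  have h1 : (i + 1) % B.ht n = i % B.ht n + 1 := by
    rw [Nat.add_mod, Nat.one_mod_eq_one.2 (by omega), Nat.mod_eq_of_lt hi]
  have h2 : (i + 1) / B.ht n = i / B.ht n := by
    have e1 := Nat.div_add_mod (i + 1) (B.ht n)
    have e2 := Nat.div_add_mod i (B.ht n)
    rw [h1] at e1
    exact Nat.eq_of_mul_eq_mul_left (B.ht_pos n) (by omega)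
  simp only [jump, word, h1, h2]
  cases B.bit n (i / B.ht n) <;> cases B.word n (i % B.ht n + 1) <;>
    cases B.word n (i % B.ht n) <;> rfl

theorem jump_eq {n m : ℕ} (hnm : n ≤ m) : ∀ i, i < B.ht m → i % B.ht n + 1 < B.ht n →
    B.jump m i = B.jump n (i % B.ht n) := by
  induction m, hnm using Nat.le_induction with
  | base => intro i hlt _; rw [Nat.mod_eq_of_lt hlt]
  | succ m hm ih =>
    intro i _ hi
    have hlt : i % B.ht m < B.ht m := Nat.mod_lt _ (B.ht_pos m)
    have hmod : i % B.ht m % B.ht n = i % B.ht n := Nat.mod_mod_of_dvd _ (B.ht_dvd hm)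
    have htop : i % B.ht m + 1 < B.ht m := by
      by_contra hc
      have he : i % B.ht m + 1 = B.ht m := by omega
      have h0 : (i % B.ht m + 1) % B.ht n = 0 := by
        rw [he]; exact Nat.mod_eq_zero_of_dvd (B.ht_dvd hm)
      rw [Nat.add_mod, hmod, Nat.one_mod_eq_one.2 (by omega), Nat.mod_eq_of_lt hi] at h0
      omega
    rw [B.jump_succ htop, ih _ hlt (hmod.symm ▸ hi), hmod]

/-- The digit of level `n`. -/
def digit (n : ℕ) (x : ℤ_[2]) : ℕ := (res (B.lev n) x).val

theorem digit_lt (n : ℕ) (x : ℤ_[2]) : B.digit n x < B.ht n := ZMod.val_lt _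

theorem digit_mod {n m : ℕ} (h : n ≤ m) (x : ℤ_[2]) : B.digit m x % B.ht n = B.digit n x :=
  (val_mod (B.lev_mono h) x).symm

/-- The points where the cocycle flips the coin. -/
def flipSet : Set ℤ_[2] :=
  ⋃ n, res (B.lev n) ⁻¹' {i | i.val + 1 < B.ht n ∧ B.jump n i.val = true}

open scoped Classical in
/-- The cocycle. -/
def phi (x : ℤ_[2]) : Bool := decide (x ∈ B.flipSet)

theorem measurable_phi : Measurable B.phi := by
  classical
  refine measurable_to_bool ?_
  rw [show B.phi ⁻¹' {true} = B.flipSet by ext x; simp [phi]]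
  exact MeasurableSet.iUnion fun n => measurableSet_res _ _

theorem phi_eq {n : ℕ} {x : ℤ_[2]} (hx : B.digit n x + 1 < B.ht n) :
    B.phi x = B.jump n (B.digit n x) := by
  classical
  have key : ∀ m, n ≤ m → B.jump m (B.digit m x) = B.jump n (B.digit n x) := by
    intro m hm
    rw [B.jump_eq hm _ (B.digit_lt m x) (by rwa [B.digit_mod hm]), B.digit_mod hm]
  by_cases hb : B.jump n (B.digit n x) = true
  · rw [hb]
    exact decide_eq_true (Set.mem_iUnion.2 ⟨n, hx, hb⟩)
  · rw [eq_false_of_ne_true hb]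
    refine decide_eq_false fun hm => hb ?_
    obtain ⟨m, hm1, hm2⟩ := Set.mem_iUnion.1 hm
    have h1 : B.digit m x + 1 < B.ht m := hm1
    rcases le_total n m with hle | hle
    · rw [← key m hle]; exact hm2
    · rw [B.jump_eq hle _ (B.digit_lt n x) (by rwa [B.digit_mod hle]), B.digit_mod hle]
      exact hm2

/-- The extension of the odometer. -/
def T : Space ≃ᵐ Space where
  toFun p := (p.1 + 1, xor p.2 (B.phi p.1))
  invFun p := (p.1 - 1, xor p.2 (B.phi (p.1 - 1)))
  left_inv p := by simp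
  right_inv p := by simp
  measurable_toFun := (measurable_fst.add_const 1).prodMk
    ((measurable_of_countable fun q : Bool × Bool => xor q.1 q.2).comp
      (measurable_snd.prodMk (B.measurable_phi.comp measurable_fst)))
  measurable_invFun := (measurable_fst.sub_const 1).prodMk
    ((measurable_of_countable fun q : Bool × Bool => xor q.1 q.2).comp
      (measurable_snd.prodMk (B.measurable_phi.comp (measurable_fst.sub_const 1))))

theorem T_apply (p : Space) : B.T p = (p.1 + 1, xor p.2 (B.phi p.1)) := rfl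

theorem measurePreserving_T : MeasurePreserving B.T meas meas :=
  (measurePreserving_add_right haarTwo 1).skew_product
    (g := fun x s => xor s (B.phi x))
    ((measurable_of_countable fun q : Bool × Bool => xor q.1 q.2).comp
      (measurable_snd.prodMk (B.measurable_phi.comp measurable_fst)))
    (.of_forall fun x => (coin_xor (B.phi x)).map_eq)

theorem ae_comp {α : Type*} {u v : Space → α} (h : u =ᵐ[meas] v) :
    (u ∘ B.T : Space → α) =ᵐ[meas] v ∘ B.T :=
  B.measurePreserving_T.quasiMeasurePreserving.ae_eq_comp h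

theorem ae_comp_symm {α : Type*} {u v : Space → α} (h : u =ᵐ[meas] v) :
    (u ∘ B.T.symm : Space → α) =ᵐ[meas] v ∘ B.T.symm :=
  (MeasurePreserving.symm B.T B.measurePreserving_T).quasiMeasurePreserving.ae_eq_comp h

/-- The Koopman operator. -/
def U : Lp ℂ 2 meas ≃ₗᵢ[ℂ] Lp ℂ 2 meas :=
  LinearIsometryEquiv.ofSurjective (Lp.compMeasurePreservingₗᵢ ℂ B.T B.measurePreserving_T)
    fun v => ⟨Lp.compMeasurePreserving B.T.symm
      (MeasurePreserving.symm B.T B.measurePreserving_T) v, by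
      refine Lp.ext ((Lp.coeFn_compMeasurePreserving _ _).trans
        ((B.ae_comp (Lp.coeFn_compMeasurePreserving _ _)).trans (.of_forall fun p => ?_)))
      simp⟩

theorem U_coeFn (v : Lp ℂ 2 meas) : (B.U v : Space → ℂ) =ᵐ[meas] v ∘ B.T :=
  Lp.coeFn_compMeasurePreserving v B.measurePreserving_T

theorem U_zpow_coeFn (v : Lp ℂ 2 meas) (m : ℤ) :
    ((B.U ^ m) v : Space → ℂ) =ᵐ[meas] v ∘ ⇑((B.T.toEquiv : Equiv.Perm Space) ^ m) := by
  induction m using Int.induction_on with
  | zero => simp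
  | succ a ih =>
    rw [add_comm (a : ℤ) 1, zpow_one_add, add_comm 1 (a : ℤ), zpow_add_one]
    exact (B.U_coeFn _).trans ((B.ae_comp ih).trans (.of_forall fun p => rfl))
  | pred a ih =>
    have h : ((B.U ^ (-(a : ℤ))) v : Space → ℂ) =ᵐ[meas] ((B.U ^ (-(a : ℤ) - 1)) v) ∘ B.T := by
      have he : (B.U ^ (-(a : ℤ))) v = B.U ((B.U ^ (-(a : ℤ) - 1)) v) := by
        conv_lhs => rw [show (-(a : ℤ)) = 1 + (-(a : ℤ) - 1) by ring, zpow_one_add]
        rfl
      rw [he]
      exact B.U_coeFn _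
    refine EventuallyEq.trans ?_ ((B.ae_comp_symm (h.symm.trans ih)).trans ?_)
    · exact .of_forall fun p => by simp
    · rw [zpow_sub_one]
      exact .of_forall fun p => rfl

theorem fst_zpow (m : ℤ) (p : Space) :
    (((B.T.toEquiv : Equiv.Perm Space) ^ m) p).1 = p.1 + m := by
  induction m using Int.induction_on generalizing p with
  | zero => simp
  | succ a ih =>
    rw [zpow_add_one, Equiv.Perm.mul_apply, ih]
    simp [T_apply]; ring
  | pred a ih =>
    rw [zpow_sub_one, Equiv.Perm.mul_apply, ih]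
    show (p.1 - 1) + _ = _
    push_cast; ring

theorem digit_add {n j : ℕ} {x : ℤ_[2]} (hx : res (B.lev n) x = 0) (hj : j < B.ht n) :
    B.digit n (x + j) = j := by
  rw [digit, res_add, hx, zero_add, res_natCast, ZMod.val_natCast]
  exact Nat.mod_eq_of_lt hj

theorem pow_apply {n : ℕ} {p : Space} (hx : res (B.lev n) p.1 = 0) :
    ∀ j : ℕ, j < B.ht n → ((B.T.toEquiv : Equiv.Perm Space) ^ (j : ℤ)) p =
      (p.1 + j, xor p.2 (xor (B.word n 0) (B.word n j))) := by
  intro j
  induction j with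
  | zero => intro _; simp
  | succ j ih =>
    intro hj
    rw [Nat.cast_succ, add_comm (j : ℤ) 1, zpow_one_add, Equiv.Perm.mul_apply, ih (by omega)]
    show B.T _ = _
    rw [T_apply]
    simp only []
    rw [B.phi_eq (n := n) (by rw [B.digit_add hx (by omega)]; omega),
      B.digit_add hx (by omega)]
    refine Prod.ext (by push_cast; ring) ?_
    simp only [jump]
    cases p.2 <;> cases B.word n 0 <;> cases B.word n j <;> cases B.word n (j + 1) <;> rfl

/-- The sign of a coin value. -/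
def sgn (b : Bool) : ℂ := if b then -1 else 1

theorem sgn_xor (a b : Bool) : sgn (xor a b) = sgn a * sgn b := by
  cases a <;> cases b <;> simp [sgn]

theorem sgn_mul_self (a : Bool) : sgn a * sgn a = 1 := by cases a <;> simp [sgn]

theorem norm_sgn (a : Bool) : ‖sgn a‖ = 1 := by cases a <;> simp [sgn]

/-- The function defining a block vector. -/
def blkFun (n : ℕ) (j : ZMod (2 ^ B.lev n)) : ZMod (2 ^ B.lev n) × Bool → ℂ := fun q =>
  if q.1 = j then (Real.sqrt (B.ht n) : ℂ) * sgn q.2 * sgn (B.word n 0) * sgn (B.word n j.val)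
  else 0

/-- The block vectors. -/
def blk (n : ℕ) (j : ZMod (2 ^ B.lev n)) : Lp ℂ 2 meas := cylL (B.lev n) (B.blkFun n j)

theorem zpow_blk (n : ℕ) (j : ZMod (2 ^ B.lev n)) :
    (B.U ^ (j.val : ℤ)) (B.blk n j) = B.blk n 0 := by
  refine Lp.ext ((B.U_zpow_coeFn _ _).trans ?_)
  have hq : Measure.QuasiMeasurePreserving
      ⇑((B.T.toEquiv : Equiv.Perm Space) ^ (j.val : ℤ)) meas meas := by
    rw [zpow_natCast, Equiv.Perm.coe_pow]
    exact (B.measurePreserving_T.iterate _).quasiMeasurePreserving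
  refine (hq.ae_eq_comp (cylL_coeFn _ _)).trans (EventuallyEq.trans ?_ (cylL_coeFn _ _).symm)
  refine .of_forall fun p => ?_
  simp only [Function.comp_apply, blkFun]
  by_cases hx : res (B.lev n) p.1 = 0
  · rw [B.pow_apply hx _ (ZMod.val_lt j), if_pos hx]
    simp only [res_add, hx, zero_add, res_natCast, ZMod.natCast_zmod_val, if_pos, ZMod.val_zero,
      sgn_xor]
    linear_combination (Real.sqrt (B.ht n) : ℂ) * sgn p.2 * sgn (B.word n 0) * sgn (B.word n 0) *
      sgn_mul_self (B.word n j.val)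
  · rw [B.fst_zpow, if_neg hx, if_neg]
    rw [Int.cast_natCast, res_add, res_natCast, ZMod.natCast_zmod_val]
    exact fun h => hx (by linear_combination h)

theorem blk_eq_zpow (n : ℕ) (j : ZMod (2 ^ B.lev n)) :
    B.blk n j = (B.U ^ (-(j.val : ℤ))) (B.blk n 0) := by
  rw [← B.zpow_blk n j]
  show _ = ((B.U ^ (-(j.val : ℤ))) * (B.U ^ (j.val : ℤ))) (B.blk n j)
  rw [← zpow_add, neg_add_cancel, zpow_zero]
  rfl

/-- The coefficients relating two consecutive levels. -/
def coeff (n b : ℕ) : ℂ := sgn (B.bit n b) * sgn (B.bit n 0)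

theorem norm_coeff (n b : ℕ) : ‖B.coeff n b‖ = 1 := by simp [coeff, norm_sgn]

theorem blk_split (n : ℕ) : B.blk n 0 = ∑ b ∈ Finset.range (2 ^ B.k n),
    (B.coeff n b / (Real.sqrt ((2 ^ B.k n : ℕ) : ℝ) : ℂ)) •
      (B.U ^ (-((b * B.ht n : ℕ) : ℤ))) (B.blk (n + 1) 0) := by
  have hlt : ∀ b, b < 2 ^ B.k n → b * B.ht n < B.ht (n + 1) := fun b hb => by
    rw [ht_succ, mul_comm (B.ht n)]
    exact Nat.mul_lt_mul_of_lt_of_le hb le_rfl (B.ht_pos n)
  have hval : ∀ b, b < 2 ^ B.k n →
      ((b * B.ht n : ℕ) : ZMod (2 ^ B.lev (n + 1))).val = b * B.ht n := fun b hb => by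
    rw [ZMod.val_natCast, Nat.mod_eq_of_lt]; exact hlt b hb
  have hsum : ∀ b ∈ Finset.range (2 ^ B.k n),
      (B.U ^ (-((b * B.ht n : ℕ) : ℤ))) (B.blk (n + 1) 0) =
        B.blk (n + 1) ((b * B.ht n : ℕ) : ZMod (2 ^ B.lev (n + 1))) := fun b hb => by
    rw [B.blk_eq_zpow (n + 1) ((b * B.ht n : ℕ) : ZMod _), hval b (Finset.mem_range.1 hb)]
  rw [Finset.sum_congr rfl fun b hb => by rw [hsum b hb]]
  unfold blk
  simp only [← map_smul, ← map_sum]
  rw [← cylL_refine (B.lev_mono (Nat.le_succ n)) (B.blkFun n 0)]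
  congr 1
  funext q
  obtain ⟨i, s⟩ := q
  have hcast : (i.cast : ZMod (2 ^ B.lev n)) = 0 ↔ B.ht n ∣ i.val := by
    rw [ZMod.cast_eq_val, ZMod.natCast_eq_zero_iff]
    rfl
  simp only [Finset.sum_apply, Pi.smul_apply, smul_eq_mul, blkFun]
  by_cases hi : (i.cast : ZMod (2 ^ B.lev n)) = 0
  · obtain ⟨b, hb⟩ := hcast.1 hi
    have hbN : b < 2 ^ B.k n := by
      refine Nat.lt_of_mul_lt_mul_left (a := B.ht n) ?_
      rw [← hb, ← B.ht_succ]
      exact ZMod.val_lt i
    rw [mul_comm] at hb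
    have hib : i = ((b * B.ht n : ℕ) : ZMod (2 ^ B.lev (n + 1))) := by
      rw [← hb, ZMod.natCast_zmod_val]
    rw [if_pos hi, Finset.sum_eq_single b, if_pos hib]
    · have h0 : B.word (n + 1) 0 = xor (B.bit n 0) (B.word n 0) := by
        simpa using B.word_block (n := n) (b := 0)
      rw [hval b hbN, word_block, h0, ZMod.val_zero, sgn_xor, sgn_xor, coeff]
      have hN : (Real.sqrt ((2 ^ B.k n : ℕ) : ℝ) : ℂ) ≠ 0 := by
        exact_mod_cast (Real.sqrt_pos.2 (by positivity)).ne'
      rw [show (Real.sqrt (B.ht (n + 1)) : ℂ) =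
        (Real.sqrt (B.ht n) : ℂ) * (Real.sqrt ((2 ^ B.k n : ℕ) : ℝ) : ℂ) by
          rw [ht_succ, Nat.cast_mul, Real.sqrt_mul (Nat.cast_nonneg _), Complex.ofReal_mul]]
      field_simp
      linear_combination -((Real.sqrt (B.ht n) : ℂ) * sgn s * sgn (B.word n 0) *
        sgn (B.word n 0) * sgn (B.bit n b) * sgn (B.bit n b)) * sgn_mul_self (B.bit n 0) -
        ((Real.sqrt (B.ht n) : ℂ) * sgn s * sgn (B.word n 0) * sgn (B.word n 0)) *
        sgn_mul_self (B.bit n b)
    · intro c hc hcb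
      rw [if_neg, mul_zero]
      intro h
      refine hcb (Nat.eq_of_mul_eq_mul_right (B.ht_pos n) ?_)
      rw [← hb, h, hval c (Finset.mem_range.1 hc)]
    · exact fun h => absurd (Finset.mem_range.2 hbN) h
  · rw [if_neg hi, Finset.sum_eq_zero]
    intro c hc
    rw [if_neg, mul_zero]
    intro h
    exact hi (hcast.2 ⟨c, by rw [h, hval c (Finset.mem_range.1 hc), mul_comm]⟩)

theorem norm_blk (n : ℕ) : ‖B.blk n 0‖ = 1 := by
  have hm : meas.real ((res (B.lev n) ⁻¹' {0}) ×ˢ (Set.univ : Set Bool)) = ((B.ht n : ℝ))⁻¹ := by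
    rw [measureReal_def, meas, Measure.prod_prod, haar_res, measure_univ, mul_one]
    simp [ht]
  have h : ⟪B.blk n 0, B.blk n 0⟫_ℂ = 1 := by
    rw [L2.inner_def, integral_congr_ae (g := fun p : Space =>
      ((res (B.lev n) ⁻¹' {0}) ×ˢ (Set.univ : Set Bool)).indicator
        (fun _ => (B.ht n : ℂ)) p) ?_,
      integral_indicator_const _ ((measurableSet_res _ _).prod MeasurableSet.univ), hm,
      Complex.real_smul]
    · have : (B.ht n : ℂ) ≠ 0 := by exact_mod_cast (B.ht_pos n).ne'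
      push_cast
      field_simp
    · filter_upwards [cylL_coeFn (B.lev n) (B.blkFun n 0)] with p hp
      rw [blk, hp]
      simp only [blkFun]
      split_ifs with hx
      · rw [RCLike.inner_apply, ZMod.val_zero, Set.indicator_of_mem
          (show p ∈ (res (B.lev n) ⁻¹' {0}) ×ˢ (Set.univ : Set Bool) from ⟨hx, trivial⟩)]
        have hs : (Real.sqrt (B.ht n) : ℂ) * (Real.sqrt (B.ht n) : ℂ) = (B.ht n : ℂ) := by
          rw [← Complex.ofReal_mul, Real.mul_self_sqrt (Nat.cast_nonneg _), Complex.ofReal_natCast]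
        cases p.2 <;> cases B.word n 0 <;> simp [sgn, hs]
      · rw [Set.indicator_of_notMem (show p ∉ (res (B.lev n) ⁻¹' {0}) ×ˢ (Set.univ : Set Bool) from
          fun hp => hx hp.1)]
        simp
  have h2 : ‖B.blk n 0‖ ^ 2 = 1 := by
    rw [← inner_self_eq_norm_sq (𝕜 := ℂ), h]; simp
  exact (sq_eq_one_iff.1 h2).resolve_right fun hneg => by linarith [norm_nonneg (B.blk n 0)]

theorem blk_orth (n : ℕ) (m : ℤ) (hm : ¬ (B.ht n : ℤ) ∣ m) :
    ⟪B.blk n 0, (B.U ^ m) (B.blk n 0)⟫_ℂ = 0 := by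
  have hq : ∀ᵐ p ∂meas, (B.blk n 0) (((B.T.toEquiv : Equiv.Perm Space) ^ m) p) =
      B.blkFun n 0 (res (B.lev n) (((B.T.toEquiv : Equiv.Perm Space) ^ m) p).1,
        (((B.T.toEquiv : Equiv.Perm Space) ^ m) p).2) := by
    have hmp : MeasurePreserving ⇑((B.T.toEquiv : Equiv.Perm Space) ^ m) meas meas := by
      obtain ⟨a, rfl | rfl⟩ := Int.eq_nat_or_neg m
      · rw [zpow_natCast, Equiv.Perm.coe_pow]
        exact B.measurePreserving_T.iterate a
      · rw [zpow_neg, zpow_natCast, ← inv_pow, Equiv.Perm.coe_pow]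
        exact (MeasurePreserving.symm B.T B.measurePreserving_T).iterate a
    exact hmp.quasiMeasurePreserving.ae_eq_comp (cylL_coeFn (B.lev n) (B.blkFun n 0))
  rw [L2.inner_def]
  refine integral_eq_zero_of_ae ?_
  filter_upwards [cylL_coeFn (B.lev n) (B.blkFun n 0), B.U_zpow_coeFn (B.blk n 0) m, hq]
    with p h1 h2 h3
  rw [Pi.zero_apply, blk, h1, ← blk, h2, Function.comp_apply, h3, RCLike.inner_apply]
  simp only [blkFun, B.fst_zpow]
  split_ifs with ha hb
  · exfalso
    refine hm ?_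
    have h0 : ((m : ℤ) : ZMod (2 ^ B.lev n)) = 0 := by
      have : res (B.lev n) (p.1 + (m : ℤ_[2])) = (m : ZMod (2 ^ B.lev n)) := by
        rw [res_add, hb, zero_add, res, map_intCast]
      rw [← this, ha]
    exact (ZMod.intCast_zmod_eq_zero_iff_dvd _ _).1 h0
  all_goals simp

end Blocks

end Vale.Agent.P130.Morse
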