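import Mathlib

/-!
P130: the 2-adic odometer space with a fair coin, its cylinder functions, and their density.
-/

noncomputable section

namespace Vale.Agent.P130.Morse

open MeasureTheory Filter
open scoped ComplexConjugate InnerProductSpace Topology ENNReal

/-- The Borel structure of the 2-adic integers. -/
instance instMeasurableSpaceTwoAdic : MeasurableSpace ℤ_[2] := borel _

instance instBorelSpaceTwoAdic : BorelSpace ℤ_[2] := ⟨rfl⟩

/-- Haar probability on the 2-adic integers. -/
def haarTwo : Measure ℤ_[2] := Measure.addHaarMeasure ⊤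

instance instProbHaarTwo : IsProbabilityMeasure haarTwo :=
  ⟨by
    have h := Measure.addHaarMeasure_self (K₀ := (⊤ : TopologicalSpace.PositiveCompacts ℤ_[2]))
    simpa [haarTwo] using h⟩

instance instAddHaarTwo : haarTwo.IsAddHaarMeasure := by rw [haarTwo]; infer_instance

/-- The fair coin. -/
def coin : Measure Bool := (2 : ℝ≥0∞)⁻¹ • Measure.count

instance instProbCoin : IsProbabilityMeasure coin :=
  ⟨by
    rw [coin, Measure.smul_apply, ← Finset.coe_univ, Measure.count_apply_finset,
      Finset.card_univ, Fintype.card_bool, smul_eq_mul, Nat.cast_ofNat]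
    exact ENNReal.inv_mul_cancel two_ne_zero ENNReal.ofNat_ne_top⟩

/-- The space. -/
abbrev Space := ℤ_[2] × Bool

/-- The measure on the space. -/
def meas : Measure Space := haarTwo.prod coin

instance instProbMeas : IsProbabilityMeasure meas := by rw [meas]; infer_instance

theorem coin_xor (b : Bool) : MeasurePreserving (fun s => xor s b) coin coin := by
  refine ⟨measurable_of_countable _, Measure.ext_of_singleton fun a => ?_⟩
  rw [Measure.map_apply (measurable_of_countable _) (measurableSet_singleton a),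
    show (fun s => xor s b) ⁻¹' {a} = {xor a b} by
      ext s; cases s <;> cases a <;> cases b <;> simp]
  simp [coin]

/-- The residue modulo `2 ^ E`. -/
def res (E : ℕ) (x : ℤ_[2]) : ZMod (2 ^ E) := PadicInt.toZModPow E x

theorem res_eq_iff {E : ℕ} {x y : ℤ_[2]} : res E x = res E y ↔ dist x y ≤ (2 : ℝ) ^ (-(E : ℤ)) := by
  rw [res, res, ← sub_eq_zero, ← map_sub, ← RingHom.mem_ker, PadicInt.ker_toZModPow,
    ← PadicInt.norm_le_pow_iff_mem_span_pow, dist_eq_norm]
  norm_num

theorem isLocallyConstant_res (E : ℕ) : IsLocallyConstant (res E) :=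
  (IsLocallyConstant.iff_eventually_eq _).2 fun x => by
    filter_upwards [Metric.closedBall_mem_nhds x
      (show (0 : ℝ) < (2 : ℝ) ^ (-(E : ℤ)) by positivity)] with y hy
    exact res_eq_iff.2 (Metric.mem_closedBall.1 hy)

theorem measurableSet_res (E : ℕ) (s : Set (ZMod (2 ^ E))) : MeasurableSet (res E ⁻¹' s) :=
  ((isLocallyConstant_res E) s).measurableSet

theorem res_natCast (E a : ℕ) : res E (a : ℤ_[2]) = (a : ZMod (2 ^ E)) := by simp [res]

theorem res_add (E : ℕ) (x y : ℤ_[2]) : res E (x + y) = res E x + res E y := by simp [res]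

theorem res_cast {E E' : ℕ} (h : E ≤ E') (x : ℤ_[2]) :
    ((res E' x).cast : ZMod (2 ^ E)) = res E x :=
  PadicInt.cast_toZModPow E E' h x

theorem val_mod {E E' : ℕ} (h : E ≤ E') (x : ℤ_[2]) :
    (res E x).val = (res E' x).val % 2 ^ E := by
  rw [← res_cast h x, ZMod.cast_eq_val, ZMod.val_natCast]

theorem haar_res (E : ℕ) (i : ZMod (2 ^ E)) :
    haarTwo (res E ⁻¹' {i}) = ((2 : ℝ≥0∞) ^ E)⁻¹ := by
  have hconst : ∀ j, haarTwo (res E ⁻¹' {j}) = haarTwo (res E ⁻¹' {i}) := by
    intro j
    rw [← measure_preimage_add_right haarTwo ((j - i).val : ℤ_[2]) (res E ⁻¹' {j})]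
    congr 1
    ext x
    simp only [Set.mem_preimage, Set.mem_singleton_iff, res_add, res_natCast, ZMod.natCast_zmod_val]
    exact ⟨fun h => by linear_combination h, fun h => by linear_combination h⟩
  have hsum := sum_measure_preimage_singleton (μ := haarTwo) Finset.univ
    (f := res E) fun j _ => measurableSet_res E {j}
  rw [Finset.sum_congr rfl fun j _ => hconst j, Finset.sum_const, Finset.card_univ, ZMod.card,
    Finset.coe_univ, Set.preimage_univ, measure_univ, nsmul_eq_mul] at hsum
  refine ENNReal.eq_inv_of_mul_eq_one_left ?_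
  rw [mul_comm]
  simpa using hsum

instance instNoAtomsHaarTwo : NullSingletonClass haarTwo := by
  refine ⟨fun x => le_antisymm (ge_of_tendsto' (ENNReal.tendsto_pow_atTop_nhds_zero_of_lt_one
    (show (2 : ℝ≥0∞)⁻¹ < 1 by simp)) fun E => ?_) bot_le⟩
  rw [← ENNReal.inv_pow, ← haar_res E (res E x)]
  exact measure_mono fun y hy => by simp [Set.mem_singleton_iff.1 hy]

instance instNoAtomsMeas : NullSingletonClass meas := by rw [meas]; infer_instance

instance instStandardBorelSpace : StandardBorelSpace Space := inferInstance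

/-- A cylinder function, as a continuous function. -/
def cylC (E : ℕ) (G : ZMod (2 ^ E) × Bool → ℂ) : C(Space, ℂ) :=
  ⟨fun p => G (res E p.1, p.2),
    ((((isLocallyConstant_res E).comp_continuous continuous_fst).prodMk
      ((IsLocallyConstant.of_discrete id).comp_continuous continuous_snd)).comp G).continuous⟩

/-- Cylinder functions in the space of square-integrable functions. -/
def cylL (E : ℕ) : (ZMod (2 ^ E) × Bool → ℂ) →ₗ[ℂ] Lp ℂ 2 meas where
  toFun G := ContinuousMap.toLp (E := ℂ) 2 meas ℂ (cylC E G)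
  map_add' G G' := by
    rw [← map_add]; rfl
  map_smul' c G := by
    rw [RingHom.id_apply, ← map_smul]; rfl

theorem cylL_coeFn (E : ℕ) (G : ZMod (2 ^ E) × Bool → ℂ) :
    (cylL E G : Space → ℂ) =ᵐ[meas] fun p => G (res E p.1, p.2) :=
  ContinuousMap.coeFn_toLp meas (cylC E G)

theorem cylL_refine {E E' : ℕ} (h : E ≤ E') (G : ZMod (2 ^ E) × Bool → ℂ) :
    cylL E' (fun q => G (q.1.cast, q.2)) = cylL E G := by
  refine Lp.ext ((cylL_coeFn E' _).trans (EventuallyEq.trans ?_ (cylL_coeFn E G).symm))
  exact .of_forall fun p => by simp [res_cast h]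

theorem eq_zero_of_inner_cyl (g : Lp ℂ 2 meas) (hg : ∀ E G, ⟪g, cylL E G⟫_ℂ = 0) : g = 0 := by
  have hall : ∀ F : C(Space, ℂ), ⟪g, ContinuousMap.toLp (E := ℂ) 2 meas ℂ F⟫_ℂ = 0 := by
    intro F
    have hclos : F ∈ closure {F' : C(Space, ℂ) | ∃ E G, F' = cylC E G} := by
      rw [Metric.mem_closure_iff]
      intro ε hε
      have hu : ∀ b : Bool, ∃ δ > 0, ∀ x y : ℤ_[2], dist x y < δ →
          dist (F (x, b)) (F (y, b)) < ε / 2 := fun b =>
        Metric.uniformContinuous_iff.1 (CompactSpace.uniformContinuous_of_continuous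
          (F.continuous.comp (continuous_id.prodMk continuous_const))) _ (half_pos hε)
      choose δ hδ hF using hu
      obtain ⟨E, hE⟩ := exists_pow_lt_of_lt_one (lt_min (hδ false) (hδ true))
        (by norm_num : (2 : ℝ)⁻¹ < 1)
      refine ⟨cylC E fun q => F ((q.1.val : ℤ_[2]), q.2), ⟨E, _, rfl⟩, ?_⟩
      refine lt_of_le_of_lt ((ContinuousMap.dist_le (half_pos hε).le).2 fun p => ?_) (half_lt_self hε)
      refine (hF p.2 p.1 ((res E p.1).val : ℤ_[2])
        (lt_of_le_of_lt ((res_eq_iff (E := E)).1 ?_) ?_)).le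
      · rw [res_natCast, ZMod.natCast_zmod_val]
      · rw [zpow_neg, zpow_natCast, ← inv_pow]
        refine lt_of_lt_of_le hE ?_
        cases p.2
        exacts [min_le_left _ _, min_le_right _ _]
    refine closure_minimal ?_ (isClosed_eq (continuous_const.inner
      (ContinuousMap.toLp (E := ℂ) 2 meas ℂ).continuous) continuous_const) hclos
    rintro _ ⟨E, G, rfl⟩
    exact hg E G
  have hd : DenseRange (ContinuousMap.toLp (E := ℂ) 2 meas ℂ : C(Space, ℂ) →L[ℂ] Lp ℂ 2 meas) :=
    ContinuousMap.toLp_denseRange ℂ meas ℂ (by norm_num)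
  have h : (fun v : Lp ℂ 2 meas => ⟪g, v⟫_ℂ) = fun _ => 0 :=
    hd.equalizer (continuous_const.inner continuous_id) continuous_const (funext hall)
  exact inner_self_eq_zero.1 (congrFun h g)

end Vale.Agent.P130.Morse
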