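import Vale.Agent.P130.Morse.Poly

/-!
P130: generalised Riesz products with uniformly flat factors. A vector obtained from a tower of
such factors has the continuous positive Riesz product as spectral density.
-/

noncomputable section

namespace Vale.Agent.P130.Morse

open MeasureTheory Filter Finset
open scoped ComplexConjugate InnerProductSpace Topology

/-- The normalised block polynomial of step `h`. -/
def factor (h N : ℕ) (ε : ℕ → ℂ) : Poly :=
  ∑ b ∈ range N, AddMonoidAlgebra.single (-((b * h : ℕ) : ℤ)) (ε b / (Real.sqrt N : ℂ))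

variable {H : Type*} [NormedAddCommGroup H] [InnerProductSpace ℂ H]

/-- The data of a tower: step lengths, signs, and vectors related by the block polynomials. -/
structure Tower (U : H ≃ₗᵢ[ℂ] H) where
  h : ℕ → ℕ
  N : ℕ → ℕ
  ε : ℕ → ℕ → ℂ
  g : ℕ → H
  η : ℕ → ℝ
  h_pos : ∀ n, 0 < h n
  h_succ : ∀ n, h (n + 1) = h n * N n
  two_le : ∀ n, 2 ≤ N n
  ε_norm : ∀ n b, ‖ε n b‖ = 1
  g_norm : ∀ n, ‖g n‖ = 1
  g_eq : ∀ n, g n = act U (factor (h n) (N n) (ε n)) (g (n + 1))
  orth : ∀ n, ∀ k : ℤ, ¬ (h n : ℤ) ∣ k → ⟪g n, (U ^ k) (g n)⟫_ℂ = 0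
  η_nonneg : ∀ n, 0 ≤ η n
  η_le : ∀ n, η n ≤ 1 / 2
  η_sum : Summable η
  flat : ∀ n x, 1 - η n ≤ ‖ev (factor (h n) (N n) (ε n)) x‖ ∧
    ‖ev (factor (h n) (N n) (ε n)) x‖ ≤ 1 + η n

namespace Tower

variable {U : H ≃ₗᵢ[ℂ] H} (W : Tower U)

/-- The factor of level `n`. -/
def P (n : ℕ) : Poly := factor (W.h n) (W.N n) (W.ε n)

/-- The product of the factors of levels `n` to `n + K`. -/
def R (n K : ℕ) : Poly := ∏ i ∈ range K, W.P (n + i)

theorem g_eq_R (n K : ℕ) : W.g n = act U (W.R n K) (W.g (n + K)) := by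
  induction K with
  | zero => simp [R]
  | succ K ih =>
    rw [R, prod_range_succ, ← R, map_mul, mul_apply_eq_comp, ← add_assoc, P, ← W.g_eq]
    exact ih

/-- Expansion of the product with all coefficients of equal size. -/
theorem R_expand (n K : ℕ) : ∃ M : ℕ, ∃ c : ℕ → ℂ, 2 ^ K ≤ M ∧ W.h (n + K) = W.h n * M ∧
    (∀ j, ‖c j‖ ≤ 1 / Real.sqrt M) ∧
    W.R n K = ∑ j ∈ range M, AddMonoidAlgebra.single (-((j * W.h n : ℕ) : ℤ)) (c j) := by
  induction K with
  | zero =>
    refine ⟨1, fun _ => 1, le_refl _, by simp, fun j => by simp, ?_⟩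
    rw [R, prod_range_zero, sum_range_one, AddMonoidAlgebra.one_def]
    simp only [zero_mul, Nat.cast_zero, neg_zero]
  | succ K ih =>
    obtain ⟨M, c, hM, hh, hc, hR⟩ := ih
    set N := W.N (n + K) with hN
    refine ⟨M * N, fun i => c (i % M) * (W.ε (n + K) (i / M) / (Real.sqrt N : ℂ)), ?_, ?_, ?_, ?_⟩
    · rw [pow_succ]
      exact Nat.mul_le_mul hM (W.two_le _)
    · rw [← add_assoc, W.h_succ, hh, mul_assoc]
    · intro i
      rw [norm_mul, norm_div, W.ε_norm, Complex.norm_real, Real.norm_eq_abs,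
        abs_of_nonneg (Real.sqrt_nonneg _)]
      push_cast
      rw [Real.sqrt_mul (Nat.cast_nonneg _), ← one_div_mul_one_div]
      exact mul_le_mul_of_nonneg_right (hc _) (by positivity)
    · rw [R, prod_range_succ, ← R, hR, P, factor, ← hN, sum_mul_sum, ← sum_product']
      refine Finset.sum_nbij' (fun p => p.1 + M * p.2) (fun i => (i % M, i / M)) ?_ ?_ ?_ ?_ ?_
      · intro p hp
        simp only [mem_coe, mem_product, mem_range] at hp ⊢
        calc p.1 + M * p.2 < M + M * p.2 := by omega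
          _ = M * (p.2 + 1) := by ring
          _ ≤ M * N := Nat.mul_le_mul_left _ hp.2
      · intro i hi
        simp only [mem_coe, mem_product, mem_range] at hi ⊢
        have hM0 : 0 < M := Nat.pos_of_ne_zero fun h0 => by simp [h0] at hi
        exact ⟨Nat.mod_lt _ hM0, Nat.div_lt_of_lt_mul hi⟩
      · intro p hp
        simp only [mem_coe, mem_product, mem_range] at hp
        have hM0 : 0 < M := by omega
        refine Prod.ext ?_ ?_
        · rw [Nat.add_mul_mod_self_left, Nat.mod_eq_of_lt hp.1]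
        · rw [Nat.add_mul_div_left _ _ hM0, Nat.div_eq_of_lt hp.1, zero_add]
      · intro i _
        exact Nat.mod_add_div i M
      · intro p hp
        simp only [mem_product, mem_range] at hp
        have hM0 : 0 < M := by omega
        simp only []
        rw [AddMonoidAlgebra.single_mul_single, Nat.add_mul_mod_self_left,
          Nat.mod_eq_of_lt hp.1, Nat.add_mul_div_left _ _ hM0, Nat.div_eq_of_lt hp.1, zero_add, hh]
        congr 1
        push_cast
        ring

/-- The logarithm of the squared modulus of a factor. -/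
def logSq (i : ℕ) (x : Circ) : ℝ := Real.log (‖ev (W.P i) x‖ ^ 2)

theorem norm_ev_pos (i : ℕ) (x : Circ) : 0 < ‖ev (W.P i) x‖ := by
  have := (W.flat i x).1
  have := W.η_le i
  rw [P]; linarith

theorem abs_logSq_le (i : ℕ) (x : Circ) : |W.logSq i x| ≤ 4 * W.η i := by
  have h0 := W.norm_ev_pos i x
  have h1 := W.η_le i
  have h2 := W.η_nonneg i
  obtain ⟨hl, hu⟩ := W.flat i x
  rw [← P] at hl hu
  have hlog : |Real.log ‖ev (W.P i) x‖| ≤ 2 * W.η i := by
    rw [abs_le]
    constructor
    · have h3 : Real.log (1 - W.η i) ≤ Real.log ‖ev (W.P i) x‖ :=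
        Real.log_le_log (by linarith) hl
      have h4 := Real.one_sub_inv_le_log_of_pos (show (0 : ℝ) < 1 - W.η i by linarith)
      have h5 : (1 - W.η i)⁻¹ ≤ 1 + 2 * W.η i := by
        rw [inv_le_iff_one_le_mul₀ (by linarith)]
        nlinarith [mul_nonneg h2 (show (0 : ℝ) ≤ 1 - 2 * W.η i by linarith)]
      linarith
    · have h3 := Real.log_le_sub_one_of_pos h0
      linarith
  rw [logSq, Real.log_pow, abs_mul, Nat.cast_ofNat, abs_two]
  linarith

theorem continuous_logSq (i : ℕ) : Continuous (W.logSq i) :=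
  ((ev (W.P i)).continuous.norm.pow 2).log fun x => (pow_pos (W.norm_ev_pos i x) 2).ne'

theorem summable_shift (n : ℕ) : Summable fun i => 4 * W.η (n + i) :=
  (W.η_sum.comp_injective (add_right_injective n)).mul_left 4

/-- The spectral density of the vector of level `n`. -/
def den (n : ℕ) (x : Circ) : ℝ := Real.exp (∑' i, W.logSq (n + i) x)

theorem continuous_den (n : ℕ) : Continuous (W.den n) :=
  (continuous_tsum (fun i => W.continuous_logSq (n + i)) (W.summable_shift n)
    fun i x => by rw [Real.norm_eq_abs]; exact W.abs_logSq_le _ x).rexp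

/-- A uniform bound for the densities. -/
def denBound (n : ℕ) : ℝ := Real.exp (∑' i, 4 * W.η (n + i))

theorem summable_logSq (n : ℕ) (x : Circ) : Summable fun i => W.logSq (n + i) x :=
  .of_norm_bounded (W.summable_shift n) fun i => by
    rw [Real.norm_eq_abs]; exact W.abs_logSq_le _ x

theorem den_le (n : ℕ) (x : Circ) : |W.den n x| ≤ W.denBound n := by
  rw [den, Real.abs_exp, denBound, Real.exp_le_exp]
  exact (W.summable_logSq n x).tsum_le_tsum (fun i => (le_abs_self _).trans (W.abs_logSq_le _ x))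
    (W.summable_shift n)

theorem norm_R_sq (n K : ℕ) (x : Circ) :
    ‖ev (W.R n K) x‖ ^ 2 = Real.exp (∑ i ∈ range K, W.logSq (n + i) x) := by
  rw [R, map_prod, ContinuousMap.prod_apply, norm_prod, ← prod_pow, Real.exp_sum]
  exact prod_congr rfl fun i _ => (Real.exp_log (pow_pos (W.norm_ev_pos _ x) 2)).symm

theorem tendsto_norm_R_sq (n : ℕ) (x : Circ) :
    Tendsto (fun K => ‖ev (W.R n K) x‖ ^ 2) atTop (𝓝 (W.den n x)) := by
  simp only [W.norm_R_sq]
  exact (Real.continuous_exp.tendsto _).comp (W.summable_logSq n x).hasSum.tendsto_sum_nat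

theorem norm_R_sq_le (n K : ℕ) (x : Circ) : ‖ev (W.R n K) x‖ ^ 2 ≤ W.denBound n := by
  rw [W.norm_R_sq, denBound, Real.exp_le_exp]
  exact le_trans (sum_le_sum fun i _ => (le_abs_self _).trans (W.abs_logSq_le _ x))
    ((W.summable_shift n).sum_le_tsum _ fun i _ => by linarith [W.η_nonneg (n + i)])

theorem inner_g_g (n : ℕ) : ⟪W.g n, W.g n⟫_ℂ = 1 := by
  rw [inner_self_eq_norm_sq_to_K, W.g_norm]; simp

theorem norm_kappa_le (n : ℕ) (m : ℤ) :
    ‖⟪W.g n, (U ^ m) (W.g n)⟫_ℂ - (if m = 0 then 1 else 0)‖ ≤ 1 := by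
  split_ifs with h
  · subst h; simp [W.g_norm]
  · rw [sub_zero]
    exact le_trans (norm_inner_le_norm _ _) (by simp [W.g_norm])

theorem kappa_eq (n : ℕ) (m : ℤ) (hm : m = 0 ∨ ¬ (W.h n : ℤ) ∣ m) :
    ⟪W.g n, (U ^ m) (W.g n)⟫_ℂ - (if m = 0 then 1 else 0) = 0 := by
  rcases hm with rfl | hm
  · simp [W.g_norm]
  · have h0 : m ≠ 0 := fun h => hm (h ▸ dvd_zero _)
    rw [if_neg h0, sub_zero, W.orth n m hm]

/-- The correlation minus the Fourier coefficient of a finite product is small. -/
theorem approx (n : ℕ) (k : ℤ) (K : ℕ) :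
    ‖⟪W.g n, (U ^ k) (W.g n)⟫_ℂ -
      ∫ x, fourier k x * ((‖ev (W.R n K) x‖ ^ 2 : ℝ) : ℂ) ∂AddCircle.haarAddCircle‖ ≤
      2 * ((k.natAbs : ℝ) + 1) ^ 2 / 2 ^ K := by
  obtain ⟨M, c, hM, hh, hc, hR⟩ := W.R_expand n K
  set H₀ := W.h n with hH₀
  set G := W.g (n + K) with hG
  set e : ℕ → ℤ := fun j => -((j * H₀ : ℕ) : ℤ) with he
  have hg : ⟪W.g n, (U ^ k) (W.g n)⟫_ℂ = ∑ i ∈ range M, ∑ j ∈ range M,
      conj (c i) * (c j * ⟪G, (U ^ (k + e j - e i)) G⟫_ℂ) := by
    rw [W.g_eq_R n K, ← hG, hR, map_sum, ContinuousLinearMap.sum_apply, map_sum, sum_inner]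
    refine sum_congr rfl fun i _ => ?_
    rw [inner_sum]
    refine sum_congr rfl fun j _ => ?_
    rw [act_single, act_single, map_smul, zpow_zpow_apply, inner_smul_left, inner_smul_right,
      inner_zpow_zpow]
  have hi : ∫ x, fourier k x * ((‖ev (W.R n K) x‖ ^ 2 : ℝ) : ℂ) ∂AddCircle.haarAddCircle =
      ∑ i ∈ range M, ∑ j ∈ range M,
        conj (c i) * (c j * (if k + e j - e i = 0 then 1 else 0)) := by
    have hpt : ∀ x, fourier k x * ((‖ev (W.R n K) x‖ ^ 2 : ℝ) : ℂ) =
        ∑ i ∈ range M, ∑ j ∈ range M, conj (c i) * (c j * fourier (k + e j - e i) x) := by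
      intro x
      rw [Complex.ofReal_pow, ← Complex.conj_mul', hR, map_sum, ContinuousMap.sum_apply]
      simp only [map_sum]
      rw [sum_mul_sum]
      simp only [mul_sum, ev_single, ContinuousMap.smul_apply, smul_eq_mul,
        map_mul, ← fourier_neg, sub_eq_add_neg, fourier_add]
      exact sum_congr rfl fun i _ => sum_congr rfl fun j _ => by simp only [he]; ring
    rw [integral_congr_ae (.of_forall hpt),
      integral_finsetSum _ fun i _ => integrable_circ (by fun_prop)]
    refine sum_congr rfl fun i _ => ?_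
    rw [integral_finsetSum _ fun j _ => integrable_circ (by fun_prop)]
    refine sum_congr rfl fun j _ => ?_
    rw [integral_const_mul, integral_const_mul, integral_fourier]
  rw [hg, hi, ← sum_product', ← sum_product', ← sum_sub_distrib]
  set K' := k.natAbs with hK'
  set bad := range (K' + 1) ×ˢ Ico (M - K') M ∪ Ico (M - K') M ×ˢ range (K' + 1) with hbad
  have hzero : ∀ p ∈ range M ×ˢ range M, p ∉ bad →
      conj (c p.1) * (c p.2 * ⟪G, (U ^ (k + e p.2 - e p.1)) G⟫_ℂ) -
        conj (c p.1) * (c p.2 * (if k + e p.2 - e p.1 = 0 then 1 else 0)) = 0 := by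
    intro p hp hpb
    simp only [mem_product, mem_range] at hp
    simp only [hbad, mem_union, mem_product, mem_range, mem_Ico] at hpb
    rw [← mul_sub, ← mul_sub, W.kappa_eq, mul_zero, mul_zero]
    refine or_iff_not_imp_left.2 fun hm hd => hm (Int.eq_zero_of_abs_lt_dvd hd ?_)
    have h1 : |(p.1 : ℤ) - p.2| + K' + 1 ≤ M := by
      rcases le_total (p.1 : ℤ) p.2 with h | h
      · rw [abs_of_nonpos (by omega)]; omega
      · rw [abs_of_nonneg (by omega)]; omega
    have h2 : |k + e p.2 - e p.1| ≤ (K' : ℤ) + |(p.1 : ℤ) - p.2| * H₀ := by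
      rw [show k + e p.2 - e p.1 = k + ((p.1 : ℤ) - p.2) * H₀ by simp only [he]; push_cast; ring]
      refine (abs_add_le _ _).trans (le_of_eq ?_)
      rw [abs_mul, Nat.abs_cast, hK', Int.natCast_natAbs]
    have h3 : (1 : ℤ) ≤ H₀ := by exact_mod_cast W.h_pos n
    have h4 := mul_le_mul_of_nonneg_right h1 (show (0 : ℤ) ≤ (H₀ : ℤ) by linarith)
    have h5 := mul_le_mul_of_nonneg_left h3 (show (0 : ℤ) ≤ K' by positivity)
    rw [hh]
    push_cast
    linarith
  rw [← sum_subset (inter_subset_left (s₂ := bad))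
    fun p hp hpn => hzero p hp fun hb => hpn (mem_inter.2 ⟨hp, hb⟩)]
  have hM0 : (0 : ℝ) < M := by
    exact_mod_cast lt_of_lt_of_le (pow_pos (by norm_num : (0 : ℕ) < 2) K) hM
  refine le_trans (norm_sum_le_of_le _ (fun p _ => (?_ : _ ≤ 1 / (M : ℝ)))) ?_
  · rw [← mul_sub, ← mul_sub, norm_mul, norm_mul, RCLike.norm_conj, ← mul_assoc]
    refine le_trans (mul_le_mul (mul_le_mul (hc _) (hc _) (norm_nonneg _) (by positivity))
      (W.norm_kappa_le _ _) (norm_nonneg _) (by positivity)) (le_of_eq ?_)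
    rw [mul_one, div_mul_div_comm, one_mul, Real.mul_self_sqrt hM0.le]
  rw [sum_const, nsmul_eq_mul, mul_one_div]
  refine div_le_div₀ (by positivity) ?_ (by positivity) (by exact_mod_cast hM)
  have hcard : bad.card ≤ 2 * (K' + 1) ^ 2 := by
    rw [hbad]
    refine le_trans (card_union_le _ _) ?_
    rw [card_product, card_product, card_range, Nat.card_Ico]
    have : M - (M - K') ≤ K' + 1 := by omega
    calc (K' + 1) * (M - (M - K')) + (M - (M - K')) * (K' + 1)
        ≤ (K' + 1) * (K' + 1) + (K' + 1) * (K' + 1) :=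
          Nat.add_le_add (Nat.mul_le_mul_left _ this) (Nat.mul_le_mul_right _ this)
      _ = _ := by ring
  exact_mod_cast le_trans (card_le_card inter_subset_right) hcard

/-- The correlations of the vector of level `n` are the Fourier coefficients of its density. -/
theorem corr (n : ℕ) (k : ℤ) : ⟪W.g n, (U ^ k) (W.g n)⟫_ℂ =
    ∫ x, fourier k x * (W.den n x : ℂ) ∂AddCircle.haarAddCircle := by
  have h1 : Tendsto (fun K => ∫ x, fourier k x * ((‖ev (W.R n K) x‖ ^ 2 : ℝ) : ℂ)
      ∂AddCircle.haarAddCircle) atTop (𝓝 ⟪W.g n, (U ^ k) (W.g n)⟫_ℂ) := by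
    refine tendsto_iff_norm_sub_tendsto_zero.2 (squeeze_zero (fun _ => norm_nonneg _)
      (fun K => ?_) (g := fun K : ℕ => 2 * ((k.natAbs : ℝ) + 1) ^ 2 * (1 / 2) ^ K) ?_)
    · rw [norm_sub_rev, one_div, inv_pow, ← div_eq_mul_inv]
      exact W.approx n k K
    · simpa using (tendsto_pow_atTop_nhds_zero_of_lt_one (by norm_num : (0 : ℝ) ≤ 1 / 2)
        (by norm_num)).const_mul (2 * ((k.natAbs : ℝ) + 1) ^ 2)
  refine tendsto_nhds_unique h1 (tendsto_integral_of_dominated_convergence
    (fun _ => W.denBound n) (fun K => ?_) (integrable_const _) (fun K => ?_) ?_)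
  · exact (by fun_prop : Continuous fun x => fourier k x *
      ((‖ev (W.R n K) x‖ ^ 2 : ℝ) : ℂ)).aestronglyMeasurable
  · refine .of_forall fun x => ?_
    rw [norm_mul, show ‖fourier k x‖ = 1 from Circle.norm_coe _, one_mul, Complex.norm_real,
      Real.norm_eq_abs, abs_of_nonneg (sq_nonneg _)]
    exact W.norm_R_sq_le n K x
  · refine .of_forall fun x => Tendsto.const_mul _ ?_
    exact (Complex.continuous_ofReal.tendsto _).comp (W.tendsto_norm_R_sq n x)

/-- The reciprocal square root of the base density. -/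
def weight : C(Circ, ℂ) :=
  ⟨fun x => ((Real.sqrt (W.den 0 x))⁻¹ : ℝ), Complex.continuous_ofReal.comp
    ((W.continuous_den 0).sqrt.inv₀ fun _ => (Real.sqrt_pos.2 (Real.exp_pos _)).ne')⟩

theorem weight_ne (x : Circ) : W.weight x ≠ 0 := by
  simp only [weight, ContinuousMap.coe_mk, ne_eq, Complex.ofReal_eq_zero, inv_eq_zero]
  exact (Real.sqrt_pos.2 (Real.exp_pos _)).ne'

/-- A vector with orthonormal orbit whose closed span contains every level of the tower. -/
theorem exists_generator [CompleteSpace H] (W : Tower U) : ∃ f : H,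
    Orthonormal ℂ (fun k : ℤ => (U ^ k) f) ∧
      ∀ n, W.g n ∈ (Submodule.span ℂ (Set.range fun k : ℤ => (U ^ k) f)).topologicalClosure := by
  have hex : ∀ j : ℕ, ∃ p : Poly, ‖ev p - W.weight‖ < 1 / ((j : ℝ) + 1) :=
    fun j => exists_ev_close _ (by positivity)
  choose p hp using hex
  have htend : Tendsto (fun j => ev (p j)) atTop (𝓝 W.weight) :=
    tendsto_iff_norm_sub_tendsto_zero.2 (squeeze_zero (fun _ => norm_nonneg _)
      (fun j => (hp j).le) tendsto_one_div_add_atTop_nhds_zero_nat)
  have hbound : ∀ n q, ‖act U q (W.g n)‖ ≤ Real.sqrt (W.denBound n) * ‖ev q‖ := fun n q =>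
    norm_act_le U (W.continuous_den n) (W.corr n) (W.den_le n) q
  have hcauchy : CauchySeq fun j => act U (p j) (W.g 0) := by
    refine cauchySeq_of_le_tendsto_0'
      (fun j => Real.sqrt (W.denBound 0) * (2 / ((j : ℝ) + 1))) (fun i j hij => ?_) ?_
    · rw [dist_eq_norm, ← sub_apply, ← map_sub]
      refine le_trans (hbound 0 _) (mul_le_mul_of_nonneg_left ?_ (Real.sqrt_nonneg _))
      rw [map_sub, show ev (p i) - ev (p j) = (ev (p i) - W.weight) - (ev (p j) - W.weight) by abel]
      refine le_trans (norm_sub_le _ _) (le_trans (add_le_add (hp i).le (hp j).le) ?_)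
      have : 1 / ((j : ℝ) + 1) ≤ 1 / ((i : ℝ) + 1) := by
        refine one_div_le_one_div_of_le (by positivity) ?_
        exact_mod_cast Nat.succ_le_succ hij
      rw [show (2 : ℝ) / ((i : ℝ) + 1) = 1 / ((i : ℝ) + 1) + 1 / ((i : ℝ) + 1) by ring]
      linarith
    · simpa [div_eq_mul_inv, mul_assoc] using
        tendsto_one_div_add_atTop_nhds_zero_nat.const_mul (Real.sqrt (W.denBound 0) * 2)
  obtain ⟨f, hf⟩ := cauchySeq_tendsto_of_complete hcauchy
  have hfq : ∀ q, Tendsto (fun j => act U (q * p j) (W.g 0)) atTop (𝓝 (act U q f)) := by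
    intro q
    simp only [map_mul, mul_apply_eq_comp]
    exact ((act U q).continuous.tendsto f).comp hf
  have hpow : ∀ k : ℤ, (U ^ k) f = act U (AddMonoidAlgebra.single k 1) f := fun k => by
    rw [act_single, one_smul]
  have hd : Continuous fun x => (W.den 0 x : ℂ) :=
    Complex.continuous_ofReal.comp (W.continuous_den 0)
  refine ⟨f, ?_, fun n => ?_⟩
  · rw [orthonormal_iff_ite]
    intro a b
    refine tendsto_nhds_unique (f := fun j => ⟪act U (AddMonoidAlgebra.single a 1 * p j) (W.g 0),
      act U (AddMonoidAlgebra.single b 1 * p j) (W.g 0)⟫_ℂ) (l := atTop) ?_ ?_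
    · rw [hpow a, hpow b]
      exact Filter.Tendsto.inner (hfq _) (hfq _)
    set Φ : C(Circ, ℂ) → C(Circ, ℂ) := fun F =>
      star (fourier a * F) * (fourier b * F) * ⟨fun x => (W.den 0 x : ℂ), hd⟩ with hΦ
    have hval : ∀ x, Φ W.weight x = fourier (b + -a) x := by
      intro x
      simp only [hΦ, weight, ContinuousMap.mul_apply, ContinuousMap.star_apply,
        ContinuousMap.coe_mk, RCLike.star_def, map_mul, Complex.conj_ofReal, ← fourier_neg,
        fourier_add]
      have h0 : 0 < W.den 0 x := Real.exp_pos _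
      have : ((Real.sqrt (W.den 0 x))⁻¹ : ℝ) * (Real.sqrt (W.den 0 x))⁻¹ * W.den 0 x = 1 := by
        rw [← mul_inv, Real.mul_self_sqrt h0.le, inv_mul_cancel₀ h0.ne']
      calc _ = fourier b x * fourier (-a) x *
            ((((Real.sqrt (W.den 0 x))⁻¹ * (Real.sqrt (W.den 0 x))⁻¹ * W.den 0 x : ℝ)) : ℂ) := by
            push_cast; ring
        _ = _ := by rw [this, Complex.ofReal_one, mul_one]
    have hlim : (if a = b then (1 : ℂ) else 0) = ∫ x, Φ W.weight x ∂AddCircle.haarAddCircle := by
      rw [integral_congr_ae (.of_forall hval), integral_fourier]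
      exact if_congr ⟨fun h => by omega, fun h => by omega⟩ rfl rfl
    rw [hlim]
    have hcont : Continuous Φ :=
      ((continuous_const.mul continuous_id).star.mul (continuous_const.mul continuous_id)).mul
        continuous_const
    refine (tendsto_integral_circ ((hcont.tendsto W.weight).comp htend)).congr fun j => ?_
    rw [inner_act U (W.continuous_den 0) (W.corr 0)]
    exact integral_congr_ae (.of_forall fun x => by
      simp only [Function.comp_apply, hΦ, map_mul, ev_single, one_smul, ContinuousMap.mul_apply,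
        ContinuousMap.star_apply, ContinuousMap.coe_mk, RCLike.star_def])
  · set Q := W.R 0 n with hQ
    have hg0 : W.g 0 = act U Q (W.g n) := by simpa using W.g_eq_R 0 n
    have hQne : ∀ x, ev Q x ≠ 0 := fun x h0 => by
      have := W.norm_R_sq 0 n x
      rw [← hQ, h0, norm_zero, zero_pow two_ne_zero] at this
      exact absurd this (Real.exp_pos _).ne
    set G : C(Circ, ℂ) := ⟨fun x => (W.weight x * ev Q x)⁻¹,
      (W.weight.continuous.mul (ev Q).continuous).inv₀ fun x => mul_ne_zero (W.weight_ne x) (hQne x)⟩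
      with hG
    choose s hs using fun i : ℕ => exists_ev_close G (show (0 : ℝ) < 1 / ((i : ℝ) + 1) by positivity)
    have hst : Tendsto (fun i => ev (s i)) atTop (𝓝 G) :=
      tendsto_iff_norm_sub_tendsto_zero.2 (squeeze_zero (fun _ => norm_nonneg _)
        (fun j => (hs j).le) tendsto_one_div_add_atTop_nhds_zero_nat)
    have hle : ∀ i, ‖act U (s i) f - W.g n‖ ≤
        Real.sqrt (W.denBound n) * ‖ev (s i) * W.weight * ev Q - 1‖ := by
      intro i
      refine le_of_tendsto_of_tendsto' ((hfq (s i)).sub_const (W.g n)).norm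
        (((((tendsto_const_nhds (x := ev (s i))).mul htend).mul_const (ev Q)).sub_const 1).norm.const_mul
          (Real.sqrt (W.denBound n))) fun j => ?_
      rw [show act U (s i * p j) (W.g 0) - W.g n = act U (s i * p j * Q - 1) (W.g n) by
        rw [map_sub, sub_apply, map_one, one_apply_eq_self, hg0, map_mul (act U) (s i * p j) Q,
          mul_apply_eq_comp]]
      refine le_trans (hbound n _) (le_of_eq ?_)
      rw [map_sub, map_mul, map_mul, map_one]
    have hone : G * W.weight * ev Q = 1 := by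
      ext x
      simp only [hG, ContinuousMap.mul_apply, ContinuousMap.coe_mk, ContinuousMap.one_apply,
        mul_assoc]
      exact inv_mul_cancel₀ (mul_ne_zero (W.weight_ne x) (hQne x))
    refine mem_closure_of_tendsto (f := fun i => act U (s i) f) (b := atTop) ?_
      (Eventually.of_forall fun i => ?_)
    · refine tendsto_iff_norm_sub_tendsto_zero.2 (squeeze_zero (fun _ => norm_nonneg _) hle ?_)
      have := ((((hst.mul_const W.weight).mul_const (ev Q)).sub_const 1).norm).const_mul
        (Real.sqrt (W.denBound n))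
      rw [hone, sub_self, norm_zero, mul_zero] at this
      exact this
    · induction s i using AddMonoidAlgebra.induction_linear with
      | zero => simp
      | add a b ha hb =>
        rw [map_add, add_apply]
        exact Submodule.add_mem _ ha hb
      | single m r =>
        rw [act_single]
        exact Submodule.smul_mem _ _ (Submodule.subset_span ⟨m, rfl⟩)

end Tower

end Vale.Agent.P130.Morse
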