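import Vale.Agent.P130.Morse.Riesz
import Vale.Agent.P130.Morse.Cocycle

/-!
P130: with uniformly flat sign blocks, the extension is ergodic and the complement of its
eigenfunctions is spanned by one orthonormal orbit.
-/

noncomputable section

namespace Vale.Agent.P130.Morse

open MeasureTheory Filter
open scoped ComplexConjugate InnerProductSpace Topology

section Abstract

variable {H : Type*} [NormedAddCommGroup H] [InnerProductSpace ℂ H] (U : H ≃ₗᵢ[ℂ] H)

/-- An eigenvector is orthogonal to every orthonormal orbit. -/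
theorem inner_eigen_orbit {v f : H} {c : ℂ} (hv : U v = c • v)
    (hf : Orthonormal ℂ fun k : ℤ => (U ^ k) f) (k : ℤ) : ⟪v, (U ^ k) f⟫_ℂ = 0 := by
  by_cases hv0 : v = 0
  · simp [hv0]
  have hc : ‖c‖ = 1 := by
    have h := U.norm_map v
    rw [hv, norm_smul] at h
    exact mul_right_cancel₀ (norm_ne_zero_iff.2 hv0) (h.trans (one_mul _).symm)
  set a : ℤ → ℝ := fun i => ‖⟪v, (U ^ i) f⟫_ℂ‖ with ha
  have hstep : ∀ i, a (i + 1) = a i := by
    intro i
    simp only [ha]
    rw [← U.inner_map_map v ((U ^ i) f), hv, inner_smul_left, norm_mul, RCLike.norm_conj, hc,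
      one_mul, add_comm i 1, zpow_one_add]
    rfl
  have hconst : ∀ i, a i = a 0 := by
    intro i
    induction i using Int.induction_on with
    | zero => rfl
    | succ m ih => rw [hstep, ih]
    | pred m ih => rw [← hstep, sub_add_cancel, ih]
  have hs := (hf.comp (fun m : ℕ => (m : ℤ)) Nat.cast_injective).inner_products_summable (x := v)
  have hz : (a 0) ^ 2 = 0 := by
    refine tendsto_nhds_unique ?_ hs.tendsto_atTop_zero
    refine tendsto_const_nhds.congr fun m => ?_
    rw [← hconst (m : ℤ)]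
    simp only [ha, Function.comp_apply, norm_inner_symm]
  have h0 : a k = 0 := by rw [hconst]; exact eq_zero_of_pow_eq_zero hz
  exact norm_eq_zero.1 h0

/-- A vector orthogonal to an orbit is orthogonal to every translate of the closed span. -/
theorem inner_orbit_closure {f g y : H} (hg : ∀ k : ℤ, ⟪g, (U ^ k) f⟫_ℂ = 0)
    (hy : y ∈ (Submodule.span ℂ (Set.range fun k : ℤ => (U ^ k) f)).topologicalClosure) (m : ℤ) :
    ⟪g, (U ^ m) y⟫_ℂ = 0 := by
  have hle : (Submodule.span ℂ (Set.range fun k : ℤ => (U ^ k) f)).topologicalClosure ≤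
      LinearMap.ker (innerSL ℂ ((U ^ (-m)) g)).toLinearMap := by
    refine Submodule.topologicalClosure_minimal _ (Submodule.span_le.2 ?_)
      (ContinuousLinearMap.isClosed_ker _)
    rintro _ ⟨k, rfl⟩
    show ⟪(U ^ (-m)) g, (U ^ k) f⟫_ℂ = 0
    rw [inner_zpow_zpow, hg]
  have h : ⟪(U ^ (-m)) g, y⟫_ℂ = 0 := hle hy
  rwa [← LinearIsometryEquiv.inner_map_map (U ^ m), zpow_zpow_apply, add_neg_cancel,
    zpow_zero] at h

end Abstract

namespace Blocks

variable (B : Blocks)

/-- The character vectors of the odometer. -/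
def chi (n : ℕ) (m : ZMod (2 ^ B.lev n)) : Lp ℂ 2 meas :=
  cylL (B.lev n) fun q => ZMod.stdAddChar (m * q.1)

/-- The constant one. -/
def one : Lp ℂ 2 meas := cylL 0 fun _ => 1

theorem chi_zero (n : ℕ) : B.chi n 0 = one := by
  rw [chi, one, ← cylL_refine (Nat.zero_le (B.lev n))]
  simp

theorem U_chi (n : ℕ) (m : ZMod (2 ^ B.lev n)) :
    B.U (B.chi n m) = ZMod.stdAddChar m • B.chi n m := by
  refine Lp.ext ((B.U_coeFn _).trans ((B.ae_comp (cylL_coeFn _ _)).trans
    (EventuallyEq.trans ?_ (Lp.coeFn_smul _ _).symm)))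
  filter_upwards [cylL_coeFn (B.lev n) fun q => ZMod.stdAddChar (m * q.1)] with p hp
  simp only [Pi.smul_apply, chi, hp, Function.comp_apply, T_apply, res_add, smul_eq_mul]
  rw [show res (B.lev n) (1 : ℤ_[2]) = 1 from map_one _, mul_add, mul_one, AddChar.map_add_eq_mul]
  ring

theorem U_one : B.U one = one := by
  rw [← B.chi_zero 0, B.U_chi, AddChar.map_zero_eq_one, one_smul]

theorem inner_one_one : ⟪one, one⟫_ℂ = 1 := by
  rw [L2.inner_def, integral_congr_ae (g := fun _ => (1 : ℂ))]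
  · simp
  · filter_upwards [cylL_coeFn 0 fun _ => (1 : ℂ)] with p hp
    rw [one, hp]; simp

theorem integral_eq_inner_one (v : Lp ℂ 2 meas) : ∫ p, v p ∂meas = ⟪one, v⟫_ℂ := by
  rw [L2.inner_def]
  refine integral_congr_ae ?_
  filter_upwards [cylL_coeFn 0 fun _ => (1 : ℂ)] with p hp
  rw [one, hp]; simp

/-- Characters and block vectors together are total. -/
theorem eq_zero_of_inner (g : Lp ℂ 2 meas) (hc : ∀ n m, ⟪g, B.chi n m⟫_ℂ = 0)
    (hb : ∀ n j, ⟪g, B.blk n j⟫_ℂ = 0) : g = 0 := by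
  refine eq_zero_of_inner_cyl g fun n G₀ => ?_
  rw [← cylL_refine (B.le_lev n)]
  generalize (fun q : ZMod (2 ^ B.lev n) × Bool => G₀ (q.1.cast, q.2)) = G
  set H : ℂ := ((2 ^ B.lev n : ℕ) : ℂ) with hH
  have hH0 : H ≠ 0 := by
    rw [hH]; exact_mod_cast (B.ht_pos n).ne'
  have hs : (Real.sqrt (B.ht n) : ℂ) ≠ 0 := by
    exact_mod_cast (Real.sqrt_pos.2 (by exact_mod_cast B.ht_pos n)).ne'
  set a : ZMod (2 ^ B.lev n) → ℂ := fun i => (G (i, false) + G (i, true)) / 2 with ha
  set d : ZMod (2 ^ B.lev n) → ℂ := fun i => (G (i, false) - G (i, true)) / 2 with hd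
  set u : ZMod (2 ^ B.lev n) → ℂ := fun m => H⁻¹ * ∑ j, a j * ZMod.stdAddChar (-(m * j)) with hu
  set t : ZMod (2 ^ B.lev n) → ℂ := fun j =>
    d j * sgn (B.word n 0) * sgn (B.word n j.val) / (Real.sqrt (B.ht n) : ℂ) with ht
  have hG : G = ∑ m, u m • (fun q : ZMod (2 ^ B.lev n) × Bool => ZMod.stdAddChar (m * q.1)) +
      ∑ j, t j • B.blkFun n j := by
    funext q
    obtain ⟨i, s⟩ := q
    simp only [Pi.add_apply, Finset.sum_apply, Pi.smul_apply, smul_eq_mul, blkFun, mul_ite,
      mul_zero]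
    rw [Finset.sum_ite_eq, if_pos (Finset.mem_univ _)]
    have he : ∑ m, u m * ZMod.stdAddChar (m * i) = a i := by
      simp only [hu, mul_assoc, Finset.sum_mul]
      rw [← Finset.mul_sum, Finset.sum_comm]
      simp only [← Finset.mul_sum, ← AddChar.map_add_eq_mul]
      rw [Finset.sum_eq_single i]
      · simp [ZMod.card, hH]
        field_simp
      · intro j _ hj
        rw [Finset.sum_congr rfl (fun m _ => by rw [show -(m * j) + m * i = m * (i - j) by ring]),
          AddChar.sum_mulShift _ (ZMod.isPrimitive_stdAddChar _),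
          if_neg (sub_ne_zero.2 hj.symm)]
        simp
      · simp
    rw [he]
    have hd' : t i * ((Real.sqrt (B.ht n) : ℂ) * sgn s * sgn (B.word n 0) *
        sgn (B.word n i.val)) = d i * sgn s := by
      simp only [ht]
      field_simp
      linear_combination d i * sgn s * sgn (B.word n 0) * sgn (B.word n 0) *
        sgn_mul_self (B.word n i.val) + d i * sgn s * sgn_mul_self (B.word n 0)
    rw [hd']
    simp only [ha, hd]
    cases s <;> simp [sgn] <;> ring
  rw [hG, map_add, map_sum, map_sum, inner_add_right, inner_sum, inner_sum]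
  simp only [map_smul, inner_smul_right]
  rw [Finset.sum_eq_zero fun m _ => by rw [show cylL _ _ = B.chi n m from rfl, hc, mul_zero],
    Finset.sum_eq_zero fun j _ => by rw [show cylL _ _ = B.blk n j from rfl, hb, mul_zero],
    add_zero]

theorem inner_chi_chi (n : ℕ) (m : ZMod (2 ^ B.lev n)) : ⟪B.chi n m, B.chi n m⟫_ℂ = 1 := by
  rw [L2.inner_def, integral_congr_ae (g := fun _ => (1 : ℂ))]
  · simp
  · filter_upwards [cylL_coeFn (B.lev n) fun q => ZMod.stdAddChar (m * q.1)] with p hp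
    rw [chi, hp, inner_self_eq_norm_sq_to_K,
      show ‖(ZMod.stdAddChar (m * res (B.lev n) p.1) : ℂ)‖ = 1 from Circle.norm_coe _]
    simp

theorem chi_eq_pow (n : ℕ) (m : ZMod (2 ^ B.lev n)) (x : ℤ_[2]) :
    ZMod.stdAddChar (m * res (B.lev n) x) = (ZMod.stdAddChar m : ℂ) ^ B.digit n x := by
  rw [← AddChar.map_nsmul_eq_pow, nsmul_eq_mul, mul_comm m, digit, ZMod.natCast_zmod_val]

/-- Characters with the same eigenvalue are equal. -/
theorem chi_eq_of_eigenvalue {n n' : ℕ} (h : n ≤ n') (m : ZMod (2 ^ B.lev n))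
    (m' : ZMod (2 ^ B.lev n')) (he : (ZMod.stdAddChar m' : ℂ) = ZMod.stdAddChar m) :
    B.chi n' m' = B.chi n m := by
  refine Lp.ext ((cylL_coeFn _ _).trans (EventuallyEq.trans ?_ (cylL_coeFn _ _).symm))
  refine .of_forall fun p => ?_
  have h1 : (ZMod.stdAddChar m : ℂ) ^ B.ht n = 1 := by
    rw [← AddChar.map_nsmul_eq_pow, nsmul_eq_mul, ht, ZMod.natCast_self, zero_mul,
      AddChar.map_zero_eq_one]
  show ZMod.stdAddChar (m' * res (B.lev n') p.1) = ZMod.stdAddChar (m * res (B.lev n) p.1)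
  rw [B.chi_eq_pow, B.chi_eq_pow, he, pow_eq_pow_mod _ h1, B.digit_mod h]

/-- Every eigenspace is at most one-dimensional. -/
theorem eigen_simple {f : Lp ℂ 2 meas} (hf : Orthonormal ℂ fun k : ℤ => (B.U ^ k) f)
    (hblk : ∀ g : Lp ℂ 2 meas, (∀ k : ℤ, ⟪g, (B.U ^ k) f⟫_ℂ = 0) → ∀ n j, ⟪g, B.blk n j⟫_ℂ = 0)
    (c : ℂ) : ∃ v₀ : Lp ℂ 2 meas, ∀ v, B.U v = c • v → ∃ a : ℂ, v = a • v₀ := by
  have key : ∀ (v : Lp ℂ 2 meas), B.U v = c • v →
      (∀ n m, (ZMod.stdAddChar m : ℂ) = c → ⟪B.chi n m, v⟫_ℂ = 0) → v = 0 := by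
    intro v hv h0
    refine B.eq_zero_of_inner v (fun n m => ?_) (hblk v fun k => inner_eigen_orbit B.U hv hf k)
    rw [← inner_conj_symm]
    by_cases hm : (ZMod.stdAddChar m : ℂ) = c
    · rw [h0 n m hm, map_zero]
    · have hu : conj (ZMod.stdAddChar m : ℂ) * (ZMod.stdAddChar m : ℂ) = 1 := by
        rw [mul_comm, Complex.mul_conj', show ‖(ZMod.stdAddChar m : ℂ)‖ = 1 from Circle.norm_coe _]
        simp
      have h := B.U.inner_map_map (B.chi n m) v
      rw [B.U_chi, hv, inner_smul_left, inner_smul_right] at h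
      have h1 : ⟪B.chi n m, v⟫_ℂ = 0 := by
        by_contra h1
        refine hm ?_
        have h2 : conj (ZMod.stdAddChar m : ℂ) * c = 1 :=
          mul_right_cancel₀ h1 (by rw [mul_assoc, h, one_mul])
        linear_combination -(ZMod.stdAddChar m : ℂ) * h2 + c * hu
      rw [h1, map_zero]
  by_cases hex : ∃ n m, (ZMod.stdAddChar (m : ZMod (2 ^ B.lev n)) : ℂ) = c
  · obtain ⟨n, m, hm⟩ := hex
    refine ⟨B.chi n m, fun v hv => ⟨⟪B.chi n m, v⟫_ℂ, ?_⟩⟩
    refine sub_eq_zero.1 (key _ ?_ fun n' m' hm' => ?_)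
    · rw [map_sub, map_smul, hv, B.U_chi, hm, smul_sub, smul_comm]
    · have he : B.chi n' m' = B.chi n m := by
        rcases le_total n n' with h | h
        · exact B.chi_eq_of_eigenvalue h m m' (hm'.trans hm.symm)
        · exact (B.chi_eq_of_eigenvalue h m' m (hm.trans hm'.symm)).symm
      rw [he, inner_sub_right, inner_smul_right, B.inner_chi_chi, mul_one, sub_self]
  · exact ⟨0, fun v hv => ⟨0, by
      rw [smul_zero]
      exact key v hv fun n m hm => absurd ⟨n, m, hm⟩ hex⟩⟩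

/-- The unimodular variable of a step. -/
theorem fourier_mul (h : ℕ) (x : Circ) (b : ℕ) :
    fourier (-((b * h : ℕ) : ℤ)) x = (fourier (-(h : ℤ)) x) ^ b := by
  induction b with
  | zero => simp
  | succ b ih =>
    rw [pow_succ, ← ih, ← fourier_add]
    congr 1
    push_cast
    ring

/-- The tower of block vectors. -/
def tower (η : ℕ → ℝ) (hη0 : ∀ n, 0 ≤ η n) (hη1 : ∀ n, η n ≤ 1 / 2) (hη : Summable η)
    (hflat : ∀ n x, 1 - η n ≤ ‖ev (factor (B.ht n) (2 ^ B.k n) (B.coeff n)) x‖ ∧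
      ‖ev (factor (B.ht n) (2 ^ B.k n) (B.coeff n)) x‖ ≤ 1 + η n) : Tower B.U where
  h := B.ht
  N n := 2 ^ B.k n
  ε := B.coeff
  g n := B.blk n 0
  η := η
  h_pos := B.ht_pos
  h_succ := B.ht_succ
  two_le n := Nat.le_self_pow (Nat.one_le_iff_ne_zero.1 (B.k_pos n)) 2
  ε_norm := B.norm_coeff
  g_norm := B.norm_blk
  g_eq n := by
    rw [factor, map_sum, sum_apply]
    simp only [act_single]
    exact B.blk_split n
  orth := B.blk_orth
  η_nonneg := hη0
  η_le := hη1
  η_sum := hη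
  flat := hflat

/-- If the blocks are uniformly flat with summable errors, the extension is ergodic and the
orthogonal complement of the eigenfunctions has an orthonormal basis formed by one orbit. -/
theorem spectral (W : Tower B.U) (hW : ∀ n, W.g n = B.blk n 0) :
    Ergodic B.T meas ∧ ∃ f : Lp ℂ 2 meas, Orthonormal ℂ (fun k : ℤ => (B.U ^ k) f) ∧
      ⟪one, f⟫_ℂ = 0 ∧
      (∀ c : ℂ, ∃ v₀ : Lp ℂ 2 meas, ∀ v, B.U v = c • v → ∃ a : ℂ, v = a • v₀) ∧
      (∀ (v : Lp ℂ 2 meas) (c : ℂ), B.U v = c • v → ∀ k : ℤ, ⟪v, (B.U ^ k) f⟫_ℂ = 0) ∧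
      ∀ g : Lp ℂ 2 meas, (∀ k : ℤ, ⟪g, (B.U ^ k) f⟫_ℂ = 0) →
        (∀ (v : Lp ℂ 2 meas) (c : ℂ), B.U v = c • v → ⟪g, v⟫_ℂ = 0) → g = 0 := by
  obtain ⟨f, hf, hmem⟩ := W.exists_generator
  have hblk : ∀ g : Lp ℂ 2 meas, (∀ k : ℤ, ⟪g, (B.U ^ k) f⟫_ℂ = 0) →
      ∀ n j, ⟪g, B.blk n j⟫_ℂ = 0 := by
    intro g hg n j
    rw [B.blk_eq_zpow, ← hW]
    exact inner_orbit_closure B.U hg (hmem n) _
  refine ⟨⟨B.measurePreserving_T, ⟨fun s hs hinv => ?_⟩⟩, f, hf, ?_, B.eigen_simple hf hblk,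
    fun v c hv =>
    inner_eigen_orbit B.U hv hf, fun g hg hv => B.eq_zero_of_inner g
      (fun n m => hv _ _ (B.U_chi n m)) (hblk g hg)⟩
  · set v : Lp ℂ 2 meas := indicatorConstLp 2 hs (measure_ne_top meas s) (1 : ℂ) with hv
    have hcoe : (v : Space → ℂ) =ᵐ[meas] s.indicator fun _ => 1 := indicatorConstLp_coeFn
    have hUv : B.U v = v := by
      refine Lp.ext ((B.U_coeFn v).trans ((B.ae_comp hcoe).trans
        (EventuallyEq.trans ?_ hcoe.symm)))
      refine .of_forall fun p => ?_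
      have hp : B.T p ∈ s ↔ p ∈ s := Set.ext_iff.1 hinv p
      by_cases h : p ∈ s
      · simp [h, hp.2 h]
      · simp [h, mt hp.1 h]
    set a : ℂ := ⟪one, v⟫_ℂ with ha
    have hUw : B.U (v - a • one) = v - a • one := by rw [map_sub, map_smul, hUv, B.U_one]
    have hw : v - a • one = 0 := by
      refine B.eq_zero_of_inner _ (fun n m => ?_) (hblk _ fun k =>
        inner_eigen_orbit B.U (c := 1) (by rw [one_smul]; exact hUw) hf k)
      rw [← inner_conj_symm]
      by_cases hm : m = 0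
      · subst hm
        rw [B.chi_zero, inner_sub_right, inner_smul_right, inner_one_one, ← ha]
        simp
      · have h := B.U.inner_map_map (B.chi n m) (v - a • one)
        rw [B.U_chi, hUw, inner_smul_left] at h
        have hne : conj (ZMod.stdAddChar m : ℂ) ≠ 1 := by
          intro h1
          have h2 : (ZMod.stdAddChar m : ℂ) = 1 := by
            simpa using congrArg conj h1
          exact hm (ZMod.injective_stdAddChar (h2.trans (AddChar.map_zero_eq_one _).symm))
        have h0 : ⟪B.chi n m, v - a • one⟫_ℂ = 0 := by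
          by_contra h0
          exact hne (mul_right_cancel₀ h0 (h.trans (one_mul _).symm))
        rw [h0, map_zero]
    have hva : (v : Space → ℂ) =ᵐ[meas] fun _ => a := by
      rw [sub_eq_zero.1 hw]
      filter_upwards [Lp.coeFn_smul a (one : Lp ℂ 2 meas), cylL_coeFn 0 fun _ => (1 : ℂ)]
        with p h1 h2
      rw [h1, Pi.smul_apply, one, h2, smul_eq_mul, mul_one]
    rw [eventuallyConst_set]
    by_cases h1 : a = 1
    · left
      filter_upwards [hcoe, hva] with p h2 h3
      by_contra hp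
      rw [h3, Set.indicator_of_notMem hp, h1] at h2
      exact one_ne_zero h2
    · right
      filter_upwards [hcoe, hva] with p h2 h3 hp
      rw [h3, Set.indicator_of_mem hp] at h2
      exact h1 h2
  · simpa using inner_eigen_orbit B.U (c := 1) (by rw [one_smul]; exact B.U_one) hf 0

end Blocks

end Vale.Agent.P130.Morse
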